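import Vale.Agent.P092.H315P.Pr.Id
import Vale.Agent.P092.H179.A.Ins

/-!
P092 (helper315), [CLA]: the singular spaces over `ℝ` and `ℂ` satisfy helper179's `Meet`: the value
of a common hyperplane of `Z` and subspace of `M` is a finite sum of products.
-/

set_option linter.all false

open Module Set
open scoped Matrix

namespace Vale.Agent.P092.H315P.Pr

open Vale.Agent.P092.H100.Gr Vale.Agent.P092.H370.Po Vale.Agent.P092.H179.A

section sgr

variable {k : Type} [NontriviallyNormedField k] {n : Type} [Fintype n] [DecidableEq n]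
  {σ : k →+* k} {J : Matrix n n k} {τ : k →+* ℂ}

/-- the entries of `1 - p_M` -/
noncomputable def qe (hτ : ∀ x, ‖τ x‖ = ‖x‖) (σ : k →+* k) (J : Matrix n n k) (i : ℕ) (a b : n) :
    C(SGr σ J i, ℂ) := ContinuousMap.const _ (if a = b then 1 else 0) - pe hτ σ J i a b

theorem qe_ap (hτ : ∀ x, ‖τ x‖ = ‖x‖) {i : ℕ} (a b : n) (M : SGr σ J i) :
    qe hτ σ J i a b M = (if a = b then 1 else 0) - pe hτ σ J i a b M := rfl

theorem meet_inc (hτ : ∀ x, ‖τ x‖ = ‖x‖) (j i : ℕ) :
    Meet (D := SGr σ J j) (A := SGr σ J (j + 1)) (B := SGr σ J i) (fun x y => Inc x y)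
      (fun x y => Inc x y) (fun x y => Inc x y) := by
  refine ⟨n × n, inferInstance, fun p => pe hτ σ J (j + 1) p.1 p.2, fun p => qe hτ σ J i p.2 p.1,
    Set.range fun p : n × n => pe hτ σ J j p.1 p.2, fun Z M h => ?_, fun N N' h => ?_, ?_, ?_⟩
  · have h1 := (trS_ne (τ := τ)).2 h
    rw [tr_eq hτ] at h1
    exact h1
  · by_contra hc
    push Not at hc
    exact h (pe_sep hτ fun x y => hc _ ⟨(x, y), rfl⟩)
  · rintro _ ⟨p, rfl⟩
    exact ⟨(p.2, p.1), (pe_star hτ p.1 p.2).symm⟩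
  · rintro _ ⟨⟨x, y⟩, rfl⟩
    refine ⟨(n × n) ⊕ (n × n), inferInstance, Sum.elim
      (fun p => pe hτ σ J (j + 1) x y * pe hτ σ J (j + 1) p.1 p.2)
      (fun p => - (pe hτ σ J (j + 1) x p.1 * pe hτ σ J (j + 1) p.2 y)),
      Sum.elim (fun p => qe hτ σ J i p.2 p.1) (fun p => qe hτ σ J i p.1 p.2),
      fun N Z M h h' => ?_⟩
    have h1 := id_pe hτ h h' x y
    rw [Fintype.sum_sum_type]
    simp only [Sum.elim_inl, Sum.elim_inr, ContinuousMap.mul_apply, ContinuousMap.neg_apply,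
      qe_ap, mul_assoc, neg_mul, Finset.sum_neg_distrib]
    simp only [mul_assoc] at h1
    rw [← h1, ← Finset.mul_sum]
    ring

end sgr

end Vale.Agent.P092.H315P.Pr
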