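import Vale.Agent.P092.H315P.Pr.Prj
import Vale.Agent.P092.H370.Po4

/-!
P092 (helper315), [CLA]: the orthogonal projections of the singular spaces of a form over `ℝ` or
`ℂ`, entry by entry as continuous functions on `SGr σ J j`: they separate the points, are closed
under the star, and satisfy the identity (ID) for a hyperplane of `Z` which lies in `M`.
-/

set_option linter.all false

open Module Set
open scoped Matrix

namespace Vale.Agent.P092.H315P.Pr

open Vale.Agent.P092.H100.Gr Vale.Agent.P092.H370.Po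

section sgr

variable {k : Type} [NontriviallyNormedField k] {n : Type} [Fintype n] [DecidableEq n]
  {σ : k →+* k} {J : Matrix n n k} {τ : k →+* ℂ} {i j l : ℕ}

/-- the orthogonal projection of a singular space -/
noncomputable def pS (τ : k →+* ℂ) (X : SGr σ J j) : Matrix n n ℂ := pG τ X.1

theorem pS_sq (X : SGr σ J j) : pS τ X * pS τ X = pS τ X := pG_sq _

theorem pS_herm (X : SGr σ J j) : (pS τ X)ᴴ = pS τ X := pG_herm _

theorem pS_trace (X : SGr σ J j) : (pS τ X).trace = j := pG_trace _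

theorem inc_iff (X : SGr σ J i) (Y : SGr σ J j) : Inc X Y ↔ pS τ Y * pS τ X = pS τ X :=
  le_iff (τ := τ) X.1 Y.1

theorem inc_iff' (X : SGr σ J i) (Y : SGr σ J j) : Inc X Y ↔ pS τ X * pS τ Y = pS τ X :=
  le_iff' (τ := τ) X.1 Y.1

theorem pS_inj {X Y : SGr σ J j} (h : pS τ X = pS τ Y) : X = Y := Subtype.ext (pG_inj h)

/-- the entries -/
noncomputable def pe (hτ : ∀ x, ‖τ x‖ = ‖x‖) (σ : k →+* k) (J : Matrix n n k) (j : ℕ) (x y : n) :
    C(SGr σ J j, ℂ) :=
  ⟨fun X => pS τ X x y, ((pG_cont hτ).comp continuous_subtype_val).matrix_elem x y⟩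

variable (hτ : ∀ x, ‖τ x‖ = ‖x‖)

@[simp] theorem pe_ap (x y : n) (X : SGr σ J j) : pe hτ σ J j x y X = pS τ X x y := rfl

theorem pe_star (x y : n) : star (pe hτ σ J j x y) = pe hτ σ J j y x := by
  ext X
  have h := congrFun (congrFun (pS_herm (τ := τ) X) y) x
  exact h

theorem pe_sep {X Y : SGr σ J j} (h : ∀ x y, pe hτ σ J j x y X = pe hτ σ J j x y Y) : X = Y :=
  pS_inj (τ := τ) (by ext x y; exact h x y)

/-- the star algebra generated by the entries is dense -/
theorem pe_dense [CompactSpace (SGr σ J j)] :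
    (StarAlgebra.adjoin ℂ (Set.range fun p : n × n => pe hτ σ J j p.1 p.2)).topologicalClosure =
      ⊤ := by
  refine ContinuousMap.starSubalgebra_topologicalClosure_eq_top_of_separatesPoints _ ?_
  intro X Y hXY
  by_contra hc
  push Not at hc
  refine hXY (pe_sep hτ fun x y => ?_)
  exact hc _ ⟨pe hτ σ J j x y, StarAlgebra.subset_adjoin ℂ _ ⟨(x, y), rfl⟩, rfl⟩

/-- the defect `tr (p_Z (1 - p_M))` as a finite sum of products -/
theorem tr_eq (Z : SGr σ J i) (M : SGr σ J l) : (pS τ Z * (1 - pS τ M)).trace =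
    ∑ p : n × n, pe hτ σ J i p.1 p.2 Z * ((if p.2 = p.1 then 1 else 0) - pe hτ σ J l p.2 p.1 M) := by
  rw [Matrix.trace, Fintype.sum_prod_type]
  refine Finset.sum_congr rfl fun x _ => ?_
  rw [Matrix.diag_apply, Matrix.mul_apply]
  rfl

/-- the defect vanishes exactly for incident pairs -/
theorem trS_ne {Z : SGr σ J i} {M : SGr σ J l} :
    (pS τ Z * (1 - pS τ M)).trace ≠ 0 ↔ ¬ Inc Z M := tr_ne

/-- **(ID)**, matrix form -/
theorem id_S {N : SGr σ J j} {Z : SGr σ J (j + 1)} {M : SGr σ J l} (h : Inc N Z) (h' : Inc N M) :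
    (pS τ Z * (1 - pS τ M)).trace • (pS τ Z - pS τ N) = pS τ Z * (1 - pS τ M) * pS τ Z :=
  id_prj h h'

/-- **(ID)**, in finite sums: `(p_Z - p_N)_{xy} tr (p_Z q_M) = (p_Z q_M p_Z)_{xy}` -/
theorem id_pe {N : SGr σ J j} {Z : SGr σ J (j + 1)} {M : SGr σ J l} (h : Inc N Z) (h' : Inc N M)
    (x y : n) :
    (pe hτ σ J (j + 1) x y Z - pe hτ σ J j x y N) *
        (∑ p : n × n, pe hτ σ J (j + 1) p.1 p.2 Z *
          ((if p.2 = p.1 then 1 else 0) - pe hτ σ J l p.2 p.1 M)) =
      ∑ p : n × n, (pe hτ σ J (j + 1) x p.1 Z * pe hτ σ J (j + 1) p.2 y Z) *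
        ((if p.1 = p.2 then 1 else 0) - pe hτ σ J l p.1 p.2 M) := by
  rw [← tr_eq hτ]
  have h1 := congrFun (congrFun (id_S (τ := τ) h h') x) y
  rw [Matrix.smul_apply, Matrix.sub_apply, smul_eq_mul] at h1
  rw [mul_comm]
  refine h1.trans ?_
  rw [Matrix.mul_apply, Fintype.sum_prod_type, Finset.sum_comm]
  refine Finset.sum_congr rfl fun b _ => ?_
  rw [Matrix.mul_apply, Finset.sum_mul]
  refine Finset.sum_congr rfl fun a _ => ?_
  change pS τ Z x a * ((1 : Matrix n n ℂ) a b - pS τ M a b) * pS τ Z b y = _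
  rw [Matrix.one_apply]
  simp only [pe_ap]
  ring

end sgr

end Vale.Agent.P092.H315P.Pr
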