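import Vale.Agent.P092.H315P.Pr.Id

/-!
P092 (helper315), [CLA]: the bilinear companion of the projections: for a singular space `b` the
positive matrix `rS τ b = Jc p' Jcᴴ` kills `τ x` exactly when `x` is perpendicular to `b`, and the
identity `tr (p_Z R_b) (p_Z - p_N) = p_Z R_b p_Z` for a hyperplane `N` of `Z` perpendicular to `b`.
-/

set_option linter.all false

open Module Set
open scoped Matrix ComplexOrder

namespace Vale.Agent.P092.H315P.Pr

open Vale.Agent.P092.H100.Gr Vale.Agent.P092.H370.Po Vale.Agent.P092.H714.Cl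

section gen

variable {k : Type*} [NontriviallyNormedField k] {ι : Type*} [Fintype ι] [DecidableEq ι]
  {τ : k →+* ℂ} {j : ℕ}

/-- the difference of the projections of `Z` and of a hyperplane has rank one -/
theorem rk_trG {N : Gr k ι j} {Z : Gr k ι (j + 1)} (h : N.1 ≤ Z.1) (B : Matrix ι ι ℂ) :
    (pG τ Z - pG τ N) * B * (pG τ Z - pG τ N) =
      ((pG τ Z - pG τ N) * B).trace • (pG τ Z - pG τ N) := by
  obtain ⟨w, hw, hF⟩ := rank_one (τ := τ) h
  rw [hF]
  set c : ℂ := (star w ⬝ᵥ w)⁻¹ with hc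
  set F : Matrix ι ι ℂ := c • Matrix.vecMulVec w (star w) with hFd
  have h4 : (F * B).trace = c * (star w ⬝ᵥ (B *ᵥ w)) := by
    rw [hFd, Matrix.smul_mul, Matrix.vecMulVec_mul, Matrix.trace_smul, Matrix.trace_vecMulVec,
      smul_eq_mul, dotProduct_comm, ← Matrix.dotProduct_mulVec]
  have h5 : F * B * F = (c * (star w ⬝ᵥ (B *ᵥ w))) • F := by
    rw [hFd, Matrix.smul_mul, Matrix.mul_smul, Matrix.smul_mul, Matrix.vecMulVec_mul,
      Matrix.vecMulVec_mul_vecMulVec, Matrix.vecMulVec_smul, ← Matrix.dotProduct_mulVec,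
      smul_smul, smul_smul, smul_smul]
    congr 1
    ring
  rw [h5, h4]

end gen

section sgr

variable {k : Type} [NontriviallyNormedField k] {n : Type} [Fintype n] [DecidableEq n]
  {σ : k →+* k} {J : Matrix n n k} {i j l : ℕ}

/-- the second embedding -/
noncomputable def tc (τ : k →+* ℂ) (σ : k →+* k) : k →+* ℂ := (starRingEnd ℂ).comp (τ.comp σ)

theorem tc_norm {τ : k →+* ℂ} (hτ : ∀ x, ‖τ x‖ = ‖x‖) (hσ : ∀ x, ‖σ x‖ = ‖x‖) (x : k) :
    ‖tc τ σ x‖ = ‖x‖ := by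
  change ‖(starRingEnd ℂ) (τ (σ x))‖ = ‖x‖
  rw [RCLike.norm_conj, hτ, hσ]

/-- the form over the complex numbers -/
noncomputable def Jc (τ : k →+* ℂ) (J : Matrix n n k) : Matrix n n ℂ :=
  J.map fun x => (starRingEnd ℂ) (τ x)

/-- the positive matrix of a singular space -/
noncomputable def rS (τ : k →+* ℂ) (b : SGr σ J l) : Matrix n n ℂ :=
  Jc τ J * pG (tc τ σ) b.1 * (Jc τ J)ᴴ

variable {τ : k →+* ℂ}

theorem rS_herm (b : SGr σ J l) : (rS τ b)ᴴ = rS τ b := by
  rw [rS, Matrix.conjTranspose_mul, Matrix.conjTranspose_mul, Matrix.conjTranspose_conjTranspose,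
    pG_herm, Matrix.mul_assoc]

theorem rS_eq (b : SGr σ J l) :
    rS τ b = (Jc τ J * pG (tc τ σ) b.1) * (Jc τ J * pG (tc τ σ) b.1)ᴴ := by
  rw [Matrix.conjTranspose_mul, pG_herm, rS]
  conv_lhs => rw [← pG_sq]
  simp only [Matrix.mul_assoc]

theorem AM_hf (u : Fin l → n → k) (x : n → k) (c : Fin l) :
    ((Jc τ J * AM (tc τ σ) u)ᴴ *ᵥ fun i => τ (x i)) c = τ (hf σ J x (u c)) := by
  simp only [Matrix.mulVec, dotProduct, Matrix.conjTranspose_apply, Matrix.mul_apply, Jc,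
    Matrix.map_apply, AM_ap, hf, star_sum, star_mul', map_sum, map_mul]
  refine Finset.sum_congr rfl fun a _ => ?_
  rw [Finset.sum_mul, Finset.mul_sum]
  refine Finset.sum_congr rfl fun b _ => ?_
  change star ((starRingEnd ℂ) (τ (J a b))) * star ((starRingEnd ℂ) (τ (σ (u c b)))) * τ (x a) = _
  rw [← starRingEnd_apply, ← starRingEnd_apply, RCLike.conj_conj, RCLike.conj_conj]
  ring

/-- `R_b` kills `τ x` exactly when `x` is perpendicular to `b` -/
theorem perp_vec (b : SGr σ J l) (x : n → k) :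
    (rS τ b *ᵥ fun i => τ (x i)) = 0 ↔ ∀ y ∈ b.S, hf σ J x y = 0 := by
  rw [rS_eq, Matrix.self_mul_conjTranspose_mulVec_eq_zero]
  obtain ⟨u, hu⟩ := sp_surj b.1
  have hS : b.S = Submodule.span k (range u.1) := by
    change b.1.1 = _
    rw [← hu]
    rfl
  have h0 : pG (tc τ σ) b.1 = PM (tc τ σ) u.1 := by rw [← hu, pG_sp]
  have h1 : (Jc τ J * pG (tc τ σ) b.1)ᴴ *ᵥ (fun i => τ (x i)) = 0 ↔
      (Jc τ J * AM (tc τ σ) u.1)ᴴ *ᵥ (fun i => τ (x i)) = 0 := by
    have e1 : (Jc τ J * AM (tc τ σ) u.1)ᴴ =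
        (AM (tc τ σ) u.1)ᴴ * (Jc τ J * pG (tc τ σ) b.1)ᴴ := by
      rw [← Matrix.conjTranspose_mul, Matrix.mul_assoc, h0, PM_AM u.2]
    have e2 : (Jc τ J * pG (tc τ σ) b.1)ᴴ =
        (AM (tc τ σ) u.1 * (GM (tc τ σ) u.1)⁻¹) * (Jc τ J * AM (tc τ σ) u.1)ᴴ := by
      rw [Matrix.conjTranspose_mul, Matrix.conjTranspose_mul, pG_herm, h0, PM]
      simp only [Matrix.mul_assoc]
    constructor
    · intro h
      rw [e1, ← Matrix.mulVec_mulVec, h, Matrix.mulVec_zero]
    · intro h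
      rw [e2, ← Matrix.mulVec_mulVec, h, Matrix.mulVec_zero]
  rw [h1]
  constructor
  · intro h y hy
    rw [hS] at hy
    induction hy using Submodule.span_induction with
    | mem y hy =>
      obtain ⟨c, rfl⟩ := hy
      have h2 := congrFun h c
      rw [AM_hf] at h2
      exact (map_eq_zero τ).1 h2
    | zero => exact hf_zero_right σ J x
    | add a b _ _ ha hb => rw [hf_add_right, ha, hb, add_zero]
    | smul c a _ ha => rw [hf_smul_right, ha, mul_zero]
  · intro h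
    funext c
    rw [AM_hf, h _ (by rw [hS]; exact Submodule.subset_span ⟨c, rfl⟩), map_zero]
    rfl

/-- **perpendicularity** -/
theorem col_iff (X : SGr σ J i) (b : SGr σ J l) : Col X b ↔ rS τ b * pS τ X = 0 := by
  constructor
  · intro h
    obtain ⟨v, hv⟩ := sp_surj X.1
    have h0 : pS τ X = PM τ v.1 := by rw [pS, ← hv, pG_sp]
    have h1 : rS τ b * AM τ v.1 = 0 := by
      ext a c
      have h2 := (perp_vec (τ := τ) b (v.1 c)).2 (h _ (by
        change v.1 c ∈ X.1.1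
        rw [← hv]
        exact Submodule.subset_span ⟨c, rfl⟩))
      exact congrFun h2 a
    rw [h0, PM, Matrix.mul_assoc, ← Matrix.mul_assoc (rS τ b), h1, Matrix.zero_mul]
  · intro h x hx
    refine (perp_vec (τ := τ) b x).1 ?_
    rw [← (mem_pG (τ := τ) X.1 x).1 hx, Matrix.mulVec_mulVec]
    change (rS τ b * pS τ X) *ᵥ _ = 0
    rw [h, Matrix.zero_mulVec]

theorem col_iff' (X : SGr σ J i) (b : SGr σ J l) : Col X b ↔ pS τ X * rS τ b = 0 := by
  rw [col_iff (τ := τ)]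
  constructor
  · intro h
    have h1 := congrArg Matrix.conjTranspose h
    rwa [Matrix.conjTranspose_mul, rS_herm, pS_herm, Matrix.conjTranspose_zero] at h1
  · intro h
    have h1 := congrArg Matrix.conjTranspose h
    rwa [Matrix.conjTranspose_mul, rS_herm, pS_herm, Matrix.conjTranspose_zero] at h1

theorem rk_tr {N : SGr σ J j} {Z : SGr σ J (j + 1)} (h : Inc N Z) (B : Matrix n n ℂ) :
    (pS τ Z - pS τ N) * B * (pS τ Z - pS τ N) =
      ((pS τ Z - pS τ N) * B).trace • (pS τ Z - pS τ N) := rk_trG h B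

/-- **the identity for a hyperplane perpendicular to `b`** -/
theorem id_R {N : SGr σ J j} {Z : SGr σ J (j + 1)} {b : SGr σ J l} (h : Inc N Z) (h' : Col N b) :
    (pS τ Z * rS τ b).trace • (pS τ Z - pS τ N) = pS τ Z * rS τ b * pS τ Z := by
  have h1 : pS τ N * rS τ b = 0 := (col_iff' N b).1 h'
  have h2 : rS τ b * pS τ N = 0 := (col_iff N b).1 h'
  have e1 : (pS τ Z - pS τ N) * rS τ b = pS τ Z * rS τ b := by
    rw [Matrix.sub_mul, h1, sub_zero]
  have e2 : (pS τ Z - pS τ N) * rS τ b * (pS τ Z - pS τ N) = pS τ Z * rS τ b * pS τ Z := by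
    rw [e1, Matrix.mul_sub, Matrix.mul_assoc (pS τ Z) _ (pS τ N), h2, Matrix.mul_zero, sub_zero]
  rw [← e2, rk_tr h, e1]

theorem trR_ne {Z : SGr σ J i} {b : SGr σ J l} :
    (pS τ Z * rS τ b).trace ≠ 0 ↔ ¬ Col Z b := by
  rw [col_iff (τ := τ), not_iff_not]
  set C := Jc τ J * pG (tc τ σ) b.1 with hC
  have h1 : (pS τ Z * rS τ b).trace = ((Cᴴ * pS τ Z)ᴴ * (Cᴴ * pS τ Z)).trace := by
    have e : (Cᴴ * pS τ Z)ᴴ * (Cᴴ * pS τ Z) = pS τ Z * rS τ b * pS τ Z := by
      rw [Matrix.conjTranspose_mul, Matrix.conjTranspose_conjTranspose, pS_herm, rS_eq, ← hC]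
      simp only [Matrix.mul_assoc]
    rw [e, Matrix.trace_mul_comm (pS τ Z * rS τ b), ← Matrix.mul_assoc, pS_sq]
  rw [h1, Matrix.trace_conjTranspose_mul_self_eq_zero_iff, rS_eq, ← hC,
    Matrix.self_mul_conjTranspose_mul_eq_zero]

/-- the entries of `R_b` -/
noncomputable def pr (hτ : ∀ x, ‖τ x‖ = ‖x‖) (hσ : ∀ x, ‖σ x‖ = ‖x‖) (J : Matrix n n k) (l : ℕ)
    (x y : n) : C(SGr σ J l, ℂ) :=
  ⟨fun b => rS τ b x y, by
    have h1 : Continuous fun b : SGr σ J l => pG (tc τ σ) b.1 :=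
      (pG_cont (tc_norm hτ hσ)).comp continuous_subtype_val
    exact ((continuous_const.matrix_mul h1).matrix_mul continuous_const).matrix_elem x y⟩

variable (hτ : ∀ x, ‖τ x‖ = ‖x‖) (hσ : ∀ x, ‖σ x‖ = ‖x‖)

@[simp] theorem pr_ap (x y : n) (b : SGr σ J l) : pr hτ hσ J l x y b = rS τ b x y := rfl

theorem pr_star (x y : n) : star (pr hτ hσ J l x y) = pr hτ hσ J l y x := by
  ext b
  exact congrFun (congrFun (rS_herm (τ := τ) b) y) x

theorem trR_eq (Z : SGr σ J i) (b : SGr σ J l) : (pS τ Z * rS τ b).trace =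
    ∑ p : n × n, pe hτ σ J i p.1 p.2 Z * pr hτ hσ J l p.2 p.1 b := by
  rw [Matrix.trace, Fintype.sum_prod_type]
  refine Finset.sum_congr rfl fun x _ => ?_
  rw [Matrix.diag_apply, Matrix.mul_apply]
  rfl

/-- the identity in finite sums -/
theorem id_pr {N : SGr σ J j} {Z : SGr σ J (j + 1)} {b : SGr σ J l} (h : Inc N Z) (h' : Col N b)
    (x y : n) :
    (pe hτ σ J (j + 1) x y Z - pe hτ σ J j x y N) *
        (∑ p : n × n, pe hτ σ J (j + 1) p.1 p.2 Z * pr hτ hσ J l p.2 p.1 b) =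
      ∑ p : n × n, (pe hτ σ J (j + 1) x p.1 Z * pe hτ σ J (j + 1) p.2 y Z) *
        pr hτ hσ J l p.1 p.2 b := by
  rw [← trR_eq hτ hσ]
  have h1 := congrFun (congrFun (id_R (τ := τ) h h') x) y
  rw [Matrix.smul_apply, Matrix.sub_apply, smul_eq_mul] at h1
  rw [mul_comm]
  refine h1.trans ?_
  rw [Matrix.mul_apply, Fintype.sum_prod_type, Finset.sum_comm]
  refine Finset.sum_congr rfl fun b' _ => ?_
  rw [Matrix.mul_apply, Finset.sum_mul]
  refine Finset.sum_congr rfl fun a _ => ?_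
  simp only [pe_ap, pr_ap]
  ring

end sgr

end Vale.Agent.P092.H315P.Pr
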