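import Vale.Agent.P092.H100.Gr1

/-!
P092 (helper315), [CLA]: the orthogonal projections of the subspaces of `ι → k`, `k = ℝ` or `ℂ`
(any field with an absolute value preserving homomorphism `τ` to the complex numbers): the matrix
`pG τ L`, hermitian, idempotent, of trace `j`, continuous and injective in `L : Gr k ι j`, and
incidence.
-/

set_option linter.all false

open Module Set
open scoped Matrix ComplexOrder

namespace Vale.Agent.P092.H315P.Pr

open Vale.Agent.P092.H100.Gr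

section alg

variable {k : Type*} [Field k] {ι : Type*} {τ : k →+* ℂ} {j : ℕ}

/-- the matrix whose columns are the vectors of a frame -/
def AM (τ : k →+* ℂ) (v : Fin j → ι → k) : Matrix ι (Fin j) ℂ := Matrix.of fun i b => τ (v b i)

theorem AM_ap (v : Fin j → ι → k) (i : ι) (b : Fin j) : AM τ v i b = τ (v b i) := rfl

theorem AM_cb (C : Matrix (Fin j) (Fin j) k) (v : Fin j → ι → k) :
    AM τ (cb C v) = AM τ v * (C.map τ)ᵀ := by
  ext i b
  simp only [AM_ap, cb, Matrix.mul_apply, Matrix.transpose_apply, Matrix.map_apply,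
    Finset.sum_apply, Pi.smul_apply, smul_eq_mul, map_sum, map_mul]
  exact Finset.sum_congr rfl fun c _ => mul_comm _ _

variable [Fintype ι]

theorem AM_inj {v : Fin j → ι → k} (hv : LinearIndependent k v) {c : Fin j → ℂ}
    (h : AM τ v *ᵥ c = 0) : c = 0 := by
  obtain ⟨I, hI⟩ := exists_mn hv
  set B : Matrix (Fin j) (Fin j) ℂ := (AM τ v).submatrix I id with hB
  have h1 : B.det ≠ 0 := by
    have e : B = ((Matrix.of fun b a => v b (I a)).map τ)ᵀ := by
      ext a b
      rfl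
    rw [e, Matrix.det_transpose]
    have h2 : ((Matrix.of fun b a => v b (I a)).map τ).det = τ (mn I v) :=
      (RingHom.map_det τ _).symm
    rw [h2]
    exact (map_ne_zero τ).2 hI
  refine Matrix.eq_zero_of_mulVec_eq_zero h1 ?_
  funext a
  exact congrFun h (I a)

/-- the Gram matrix -/
def GM (τ : k →+* ℂ) (v : Fin j → ι → k) : Matrix (Fin j) (Fin j) ℂ := (AM τ v)ᴴ * AM τ v

theorem GM_det {v : Fin j → ι → k} (hv : LinearIndependent k v) : (GM τ v).det ≠ 0 := by
  intro h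
  obtain ⟨c, hc, h1⟩ := Matrix.exists_mulVec_eq_zero_iff.2 h
  exact hc (AM_inj hv ((Matrix.conjTranspose_mul_self_mulVec_eq_zero _ _).1 h1))

/-- the projection of a frame -/
noncomputable def PM (τ : k →+* ℂ) (v : Fin j → ι → k) : Matrix ι ι ℂ :=
  AM τ v * (GM τ v)⁻¹ * (AM τ v)ᴴ

theorem PM_cb {C : Matrix (Fin j) (Fin j) k} (hC : C.det ≠ 0) (v : Fin j → ι → k) :
    PM τ (cb C v) = PM τ v := by
  set D : Matrix (Fin j) (Fin j) ℂ := (C.map τ)ᵀ with hD
  have h1 : IsUnit D.det := by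
    have h2 : (C.map τ).det = τ C.det := (RingHom.map_det τ _).symm
    rw [hD, Matrix.det_transpose, h2]
    exact isUnit_iff_ne_zero.2 ((map_ne_zero τ).2 hC)
  have h2 : IsUnit (Dᴴ).det := by
    rw [Matrix.det_conjTranspose]
    exact h1.star
  have e1 : GM τ (cb C v) = Dᴴ * GM τ v * D := by
    rw [GM, AM_cb, Matrix.conjTranspose_mul, GM]
    simp only [Matrix.mul_assoc, hD]
  rw [PM, e1, AM_cb, Matrix.mul_inv_rev, Matrix.mul_inv_rev, Matrix.conjTranspose_mul, PM]
  calc AM τ v * D * (D⁻¹ * ((GM τ v)⁻¹ * (Dᴴ)⁻¹)) * (Dᴴ * (AM τ v)ᴴ)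
      = AM τ v * (D * D⁻¹) * (GM τ v)⁻¹ * ((Dᴴ)⁻¹ * Dᴴ) * (AM τ v)ᴴ := by
        simp only [Matrix.mul_assoc]
    _ = _ := by
        rw [Matrix.mul_nonsing_inv _ h1, Matrix.nonsing_inv_mul _ h2, Matrix.mul_one,
          Matrix.mul_one]

theorem PM_AM {v : Fin j → ι → k} (hv : LinearIndependent k v) : PM τ v * AM τ v = AM τ v := by
  have h1 : IsUnit (GM τ v).det := isUnit_iff_ne_zero.2 (GM_det hv)
  calc PM τ v * AM τ v = AM τ v * ((GM τ v)⁻¹ * GM τ v) := by
        rw [PM, GM]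
        simp only [Matrix.mul_assoc]
    _ = _ := by rw [Matrix.nonsing_inv_mul _ h1, Matrix.mul_one]

theorem PM_sq {v : Fin j → ι → k} (hv : LinearIndependent k v) : PM τ v * PM τ v = PM τ v := by
  calc PM τ v * PM τ v = (PM τ v * AM τ v) * (GM τ v)⁻¹ * (AM τ v)ᴴ := by
        conv_lhs => rw [show PM τ v * PM τ v = PM τ v * (AM τ v * (GM τ v)⁻¹ * (AM τ v)ᴴ) from rfl]
        simp only [Matrix.mul_assoc]
    _ = _ := by rw [PM_AM hv]; rfl

theorem GM_herm (v : Fin j → ι → k) : (GM τ v)ᴴ = GM τ v := by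
  rw [GM, Matrix.conjTranspose_mul, Matrix.conjTranspose_conjTranspose]

theorem PM_herm (v : Fin j → ι → k) : (PM τ v)ᴴ = PM τ v := by
  rw [PM, Matrix.conjTranspose_mul, Matrix.conjTranspose_mul, Matrix.conjTranspose_conjTranspose,
    Matrix.conjTranspose_nonsing_inv, GM_herm, Matrix.mul_assoc]

theorem PM_trace {v : Fin j → ι → k} (hv : LinearIndependent k v) : (PM τ v).trace = j := by
  have h1 : IsUnit (GM τ v).det := isUnit_iff_ne_zero.2 (GM_det hv)
  rw [PM, Matrix.mul_assoc, Matrix.trace_mul_comm, Matrix.mul_assoc]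
  change ((GM τ v)⁻¹ * GM τ v).trace = _
  rw [Matrix.nonsing_inv_mul _ h1, Matrix.trace_one, Fintype.card_fin]

theorem mem_AM {v : Fin j → ι → k} (hv : LinearIndependent k v) (x : ι → k) :
    x ∈ Submodule.span k (range v) ↔ ∃ c : Fin j → ℂ, AM τ v *ᵥ c = fun i => τ (x i) := by
  constructor
  · intro h
    obtain ⟨c, hc⟩ := (Submodule.mem_span_range_iff_exists_fun k).1 h
    refine ⟨fun b => τ (c b), ?_⟩
    funext i
    rw [← hc]
    simp only [Matrix.mulVec, dotProduct, AM_ap, Finset.sum_apply, Pi.smul_apply, smul_eq_mul,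
      map_sum, map_mul]
    exact Finset.sum_congr rfl fun b _ => mul_comm _ _
  · rintro ⟨c, hc⟩
    by_contra hx
    have h1 : LinearIndependent k (Fin.cons x v : Fin (j + 1) → ι → k) :=
      linearIndependent_finCons.2 ⟨hv, hx⟩
    have h2 := AM_inj (τ := τ) h1 (c := Fin.cons 1 (fun b => - c b)) (by
      funext i
      have h3 := congrFun hc i
      simp only [Matrix.mulVec, dotProduct, AM_ap] at h3
      simp only [Matrix.mulVec, dotProduct, AM_ap, Fin.sum_univ_succ, Fin.cons_zero,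
        Fin.cons_succ, mul_one, mul_neg, Finset.sum_neg_distrib, Pi.zero_apply]
      rw [h3, add_neg_cancel])
    have h3 := congrFun h2 0
    simp only [Fin.cons_zero, Pi.zero_apply] at h3
    exact one_ne_zero h3

end alg

section proj

variable {k : Type*} [NontriviallyNormedField k] {ι : Type*} [Fintype ι] {i j : ℕ}

/-- the orthogonal projection onto the complex span of `τ L` -/
noncomputable def pG (τ : k →+* ℂ) (L : Gr k ι j) : Matrix ι ι ℂ :=
  PM τ (Classical.choose (sp_surj L)).1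

variable {τ : k →+* ℂ}

theorem pG_sp (v : Fr k ι j) : pG τ (sp v) = PM τ v.1 := by
  have h1 : sp (Classical.choose (sp_surj (sp v))) = sp v := Classical.choose_spec (sp_surj (sp v))
  obtain ⟨C, hC, h2⟩ := (sp_eq _ _).1 h1.symm
  rw [pG, h2, PM_cb hC]

theorem pG_sq (L : Gr k ι j) : pG τ L * pG τ L = pG τ L := by
  obtain ⟨v, rfl⟩ := sp_surj L
  rw [pG_sp, PM_sq v.2]

theorem pG_herm (L : Gr k ι j) : (pG τ L)ᴴ = pG τ L := by
  obtain ⟨v, rfl⟩ := sp_surj L
  rw [pG_sp, PM_herm]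

theorem pG_trace (L : Gr k ι j) : (pG τ L).trace = j := by
  obtain ⟨v, rfl⟩ := sp_surj L
  rw [pG_sp, PM_trace v.2]

/-- membership -/
theorem mem_pG (L : Gr k ι j) (x : ι → k) :
    x ∈ L.1 ↔ pG τ L *ᵥ (fun i => τ (x i)) = fun i => τ (x i) := by
  obtain ⟨v, rfl⟩ := sp_surj L
  rw [pG_sp]
  change x ∈ Submodule.span k (range v.1) ↔ _
  rw [mem_AM (τ := τ) v.2]
  constructor
  · rintro ⟨c, hc⟩
    rw [← hc, Matrix.mulVec_mulVec, PM_AM v.2]
  · intro h
    refine ⟨((GM τ v.1)⁻¹ * (AM τ v.1)ᴴ) *ᵥ fun i => τ (x i), ?_⟩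
    rw [Matrix.mulVec_mulVec, ← Matrix.mul_assoc]
    exact h

/-- incidence -/
theorem le_iff (L : Gr k ι i) (M : Gr k ι j) : L.1 ≤ M.1 ↔ pG τ M * pG τ L = pG τ L := by
  constructor
  · intro h
    obtain ⟨v, rfl⟩ := sp_surj L
    have h1 : pG τ M * AM τ v.1 = AM τ v.1 := by
      ext a b
      have h2 := (mem_pG (τ := τ) M (v.1 b)).1 (h (Submodule.subset_span ⟨b, rfl⟩))
      exact congrFun h2 a
    rw [pG_sp, PM, Matrix.mul_assoc, ← Matrix.mul_assoc (pG τ M), h1]
  · intro h x hx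
    rw [mem_pG (τ := τ)] at hx ⊢
    rw [← hx, Matrix.mulVec_mulVec, h]

theorem le_iff' (L : Gr k ι i) (M : Gr k ι j) : L.1 ≤ M.1 ↔ pG τ L * pG τ M = pG τ L := by
  rw [le_iff (τ := τ)]
  constructor
  · intro h
    have h1 := congrArg Matrix.conjTranspose h
    rwa [Matrix.conjTranspose_mul, pG_herm, pG_herm] at h1
  · intro h
    have h1 := congrArg Matrix.conjTranspose h
    rwa [Matrix.conjTranspose_mul, pG_herm, pG_herm] at h1

theorem pG_inj {L M : Gr k ι j} (h : pG τ L = pG τ M) : L = M := by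
  refine Subtype.ext (le_antisymm ((le_iff (τ := τ) _ _).2 ?_) ((le_iff (τ := τ) _ _).2 ?_))
  · rw [h, pG_sq]
  · rw [h, pG_sq]

theorem tau_cont (hτ : ∀ x, ‖τ x‖ = ‖x‖) : Continuous τ :=
  (AddMonoidHomClass.isometry_of_norm τ hτ).continuous

theorem PM_cont (hτ : ∀ x, ‖τ x‖ = ‖x‖) : Continuous fun v : Fr k ι j => PM τ v.1 := by
  have hA : Continuous fun v : Fr k ι j => AM τ v.1 := by
    refine continuous_matrix fun i b => ?_
    exact (tau_cont hτ).comp ((continuous_apply i).comp ((continuous_apply b).comp fr_val_cont))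
  have hG : Continuous fun v : Fr k ι j => GM τ v.1 := hA.matrix_conjTranspose.matrix_mul hA
  have hI : Continuous fun v : Fr k ι j => (GM τ v.1)⁻¹ := by
    have e : (fun v : Fr k ι j => (GM τ v.1)⁻¹) =
        fun v => (GM τ v.1).det⁻¹ • (GM τ v.1).adjugate := by
      funext v
      rw [Matrix.inv_def, Ring.inverse_eq_inv']
    rw [e]
    exact (hG.matrix_det.inv₀ fun v => GM_det v.2).smul hG.matrix_adjugate
  exact (hA.matrix_mul hI).matrix_mul hA.matrix_conjTranspose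

theorem pG_cont (hτ : ∀ x, ‖τ x‖ = ‖x‖) : Continuous fun L : Gr k ι j => pG τ L := by
  rw [sp_quot.continuous_iff]
  have e : (fun L : Gr k ι j => pG τ L) ∘ sp = fun v => PM τ v.1 := funext fun v => pG_sp v
  rw [e]
  exact PM_cont hτ

end proj

/-! ### The identity -/

section ident

variable {k : Type*} [NontriviallyNormedField k] {ι : Type*} [Fintype ι] [DecidableEq ι]
  {τ : k →+* ℂ} {i j l : ℕ}

theorem dot_pos {w : ι → ℂ} (hw : w ≠ 0) : star w ⬝ᵥ w ≠ 0 := fun h =>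
  hw (dotProduct_star_self_eq_zero.1 h)

/-- a hermitian idempotent of trace zero vanishes -/
theorem idem_zero {D : Matrix ι ι ℂ} (h1 : Dᴴ = D) (h2 : D * D = D) (h3 : D.trace = 0) : D = 0 := by
  refine Matrix.trace_conjTranspose_mul_self_eq_zero_iff.1 ?_
  rw [h1, h2, h3]

/-- the difference of two projections of dimensions `j + 1` and `j` has rank one -/
theorem rank_one {N : Gr k ι j} {Z : Gr k ι (j + 1)} (h : N.1 ≤ Z.1) :
    ∃ w : ι → ℂ, star w ⬝ᵥ w ≠ 0 ∧
      pG τ Z - pG τ N = (star w ⬝ᵥ w)⁻¹ • Matrix.vecMulVec w (star w) := by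
  have hex : ∃ z ∈ Z.1, z ∉ N.1 := by
    by_contra hc
    push Not at hc
    have h1 : Z.1 ≤ N.1 := hc
    have h2 := Submodule.finrank_mono h1
    rw [Z.2, N.2] at h2
    omega
  obtain ⟨z, hz, hzN⟩ := hex
  set t : ι → ℂ := fun a => τ (z a) with ht
  set w : ι → ℂ := t - pG τ N *ᵥ t with hw
  have hw0 : w ≠ 0 := fun h0 => hzN ((mem_pG (τ := τ) N z).2 (sub_eq_zero.1 h0).symm)
  have hNw : pG τ N *ᵥ w = 0 := by
    rw [hw, Matrix.mulVec_sub, Matrix.mulVec_mulVec, pG_sq, sub_self]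
  have hZt : pG τ Z *ᵥ t = t := (mem_pG (τ := τ) Z z).1 hz
  have hZN : pG τ Z * pG τ N = pG τ N := (le_iff (τ := τ) N Z).1 h
  have hZw : pG τ Z *ᵥ w = w := by
    rw [hw, Matrix.mulVec_sub, Matrix.mulVec_mulVec, hZN, hZt]
  have hwn : star w ⬝ᵥ w ≠ 0 := dot_pos hw0
  have hreal : star (star w ⬝ᵥ w) = star w ⬝ᵥ w := (Matrix.star_dotProduct w w).symm
  refine ⟨w, hwn, ?_⟩
  set c : ℂ := (star w ⬝ᵥ w)⁻¹ with hc
  have hc1 : c * (star w ⬝ᵥ w) = 1 := inv_mul_cancel₀ hwn
  set F : Matrix ι ι ℂ := c • Matrix.vecMulVec w (star w) with hF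
  have hNF : pG τ N * F = 0 := by
    rw [hF, Matrix.mul_smul, Matrix.mul_vecMulVec, hNw, Matrix.zero_vecMulVec, smul_zero]
  have hZF : pG τ Z * F = F := by
    rw [hF, Matrix.mul_smul, Matrix.mul_vecMulVec, hZw]
  have hFh : Fᴴ = F := by
    rw [hF, Matrix.conjTranspose_smul, hc, star_inv₀, hreal, Matrix.conjTranspose_vecMulVec,
      star_star]
  have hFF : F * F = F := by
    rw [hF, Matrix.smul_mul, Matrix.mul_smul, Matrix.vecMulVec_mul_vecMulVec, Matrix.vecMulVec_smul,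
      smul_smul, smul_smul, mul_assoc, hc1, mul_one]
  have hFt : F.trace = 1 := by
    rw [hF, Matrix.trace_smul, Matrix.trace_vecMulVec, dotProduct_comm, smul_eq_mul, hc1]
  have hFN : F * pG τ N = 0 := by
    have h2 := congrArg Matrix.conjTranspose hNF
    rwa [Matrix.conjTranspose_mul, pG_herm, hFh, Matrix.conjTranspose_zero] at h2
  have hFZ : F * pG τ Z = F := by
    have h2 := congrArg Matrix.conjTranspose hZF
    rwa [Matrix.conjTranspose_mul, pG_herm, hFh] at h2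
  have hNZ : pG τ N * pG τ Z = pG τ N := (le_iff' (τ := τ) N Z).1 h
  have key : pG τ Z - pG τ N - F = 0 := by
    refine idem_zero ?_ ?_ ?_
    · rw [Matrix.conjTranspose_sub, Matrix.conjTranspose_sub, pG_herm, pG_herm, hFh]
    · simp only [Matrix.sub_mul, Matrix.mul_sub, pG_sq, hZN, hNZ, hFF, hFN, hNF, hFZ, hZF]
      abel
    · rw [Matrix.trace_sub, Matrix.trace_sub, pG_trace, pG_trace, hFt]
      push_cast
      ring
  exact sub_eq_zero.1 key

/-- the trace of the defect vanishes exactly for incident pairs -/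
theorem tr_ne {Z : Gr k ι i} {M : Gr k ι l} :
    (pG τ Z * (1 - pG τ M)).trace ≠ 0 ↔ ¬ Z.1 ≤ M.1 := by
  rw [le_iff (τ := τ), not_iff_not]
  set q : Matrix ι ι ℂ := 1 - pG τ M with hq
  have hqq : q * q = q := by
    simp only [hq, Matrix.sub_mul, Matrix.mul_sub, pG_sq, Matrix.one_mul, Matrix.mul_one, sub_self,
      sub_zero]
  have hqh : qᴴ = q := by
    rw [hq, Matrix.conjTranspose_sub, Matrix.conjTranspose_one, pG_herm]
  have h1 : (pG τ Z * q).trace = ((q * pG τ Z)ᴴ * (q * pG τ Z)).trace := by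
    have e : pG τ Z * q * (q * pG τ Z) = pG τ Z * q * pG τ Z := by
      rw [← Matrix.mul_assoc, Matrix.mul_assoc (pG τ Z) q q, hqq]
    rw [Matrix.conjTranspose_mul, pG_herm, hqh, e, Matrix.trace_mul_comm (pG τ Z * q),
      ← Matrix.mul_assoc, pG_sq]
  rw [h1, Matrix.trace_conjTranspose_mul_self_eq_zero_iff, hq, Matrix.sub_mul, Matrix.one_mul,
    sub_eq_zero]
  exact eq_comm

/-- **(ID)** -/
theorem id_prj {N : Gr k ι j} {Z : Gr k ι (j + 1)} {M : Gr k ι l} (h : N.1 ≤ Z.1)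
    (h' : N.1 ≤ M.1) : (pG τ Z * (1 - pG τ M)).trace • (pG τ Z - pG τ N) =
      pG τ Z * (1 - pG τ M) * pG τ Z := by
  obtain ⟨w, hw, hF⟩ := rank_one (τ := τ) h
  set q : Matrix ι ι ℂ := 1 - pG τ M with hq
  set c : ℂ := (star w ⬝ᵥ w)⁻¹ with hc
  set F : Matrix ι ι ℂ := c • Matrix.vecMulVec w (star w) with hFd
  have hZ : pG τ Z = pG τ N + F := by rw [← hF]; abel
  have hNq : pG τ N * q = 0 := by
    rw [hq, Matrix.mul_sub, Matrix.mul_one, (le_iff' (τ := τ) N M).1 h', sub_self]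
  have hqN : q * pG τ N = 0 := by
    rw [hq, Matrix.sub_mul, Matrix.one_mul, (le_iff (τ := τ) N M).1 h', sub_self]
  have h1 : pG τ Z * q = F * q := by rw [hZ, Matrix.add_mul, hNq, zero_add]
  have h2 : q * pG τ Z = q * F := by rw [hZ, Matrix.mul_add, hqN, zero_add]
  have h3 : pG τ Z * q * pG τ Z = F * q * F := by
    rw [h1, Matrix.mul_assoc, h2, ← Matrix.mul_assoc]
  have h4 : (F * q).trace = c * (star w ⬝ᵥ (q *ᵥ w)) := by
    rw [hFd, Matrix.smul_mul, Matrix.vecMulVec_mul, Matrix.trace_smul, Matrix.trace_vecMulVec,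
      smul_eq_mul, dotProduct_comm, ← Matrix.dotProduct_mulVec]
  have h5 : F * q * F = (c * (star w ⬝ᵥ (q *ᵥ w))) • F := by
    rw [hFd, Matrix.smul_mul, Matrix.mul_smul, Matrix.smul_mul, Matrix.vecMulVec_mul,
      Matrix.vecMulVec_mul_vecMulVec, Matrix.vecMulVec_smul, ← Matrix.dotProduct_mulVec,
      smul_smul, smul_smul, smul_smul]
    congr 1
    ring
  rw [h3, h5, h1, h4, hF]

end ident

end Vale.Agent.P092.H315P.Pr
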